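import Vale.Agent.P011.H27.Odd.LemL
import Vale.Agent.P011.H341.Odd.InvCont

/-!
**Lemma L, the form for two moves.**
-/

open Matrix Filter Topology
open Vale.Agent.P011.H341.Odd

set_option linter.unusedSectionVars false

namespace Vale.Agent.P011.H27.Odd

variable {K D E Pi : Type*} [Field K] [StarRing K] [TopologicalSpace K] [IsTopologicalRing K]
  [ContinuousStar K] [DivisionRing D] [StarRing D] [Algebra K D] [TopologicalSpace D]
  [IsTopologicalDivisionRing D] [T1Space D] [NonarchimedeanAddGroup D] [TopologicalSpace Pi]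

/-- one by one matrices -/
def sc1 (D : Type*) [Ring D] : D →+ Matrix (Fin 1) (Fin 1) D where
  toFun x := Matrix.of fun _ _ => x
  map_zero' := by ext; simp
  map_add' x y := by ext; simp

theorem sc1_one : sc1 D 1 = 1 := by
  ext i j
  fin_cases i; fin_cases j
  simp [sc1]

theorem sc1_apply00 (M : Matrix (Fin 1) (Fin 1) D) : sc1 D (M 0 0) = M := by
  ext i j
  fin_cases i; fin_cases j
  simp [sc1]

theorem continuous_sc1 : Continuous (sc1 D) :=
  continuous_matrix fun _ _ => continuous_id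

theorem span1
    (hspan : ∀ O ∈ 𝓝 (1 : D),
      (AddSubgroup.closure {x : D | ∃ u ∈ O, u * star u = 1 ∧ x = u - 1} : Set D) ∈ 𝓝 (0 : D)) :
    ∀ V ∈ 𝓝[{u : Matrix (Fin 1) (Fin 1) D | u 0 0 * star (u 0 0) = 1}]
        (1 : Matrix (Fin 1) (Fin 1) D),
      ((AddSubgroup.closure {d | ∃ u ∈ V, d = u - 1} :
        AddSubgroup (Matrix (Fin 1) (Fin 1) D)) : Set (Matrix (Fin 1) (Fin 1) D)) ∈
          𝓝 (0 : Matrix (Fin 1) (Fin 1) D) := by
  intro V hV
  obtain ⟨V', hV', hsub⟩ := mem_nhdsWithin_iff_exists_mem_nhds_inter.1 hV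
  have h1 : (sc1 D) ⁻¹' V' ∈ 𝓝 (1 : D) := by
    refine continuous_sc1.continuousAt.preimage_mem_nhds ?_
    rwa [sc1_one]
  have h2 := hspan _ h1
  have h3 : Continuous fun M : Matrix (Fin 1) (Fin 1) D => M 0 0 := continuous_id.matrix_elem 0 0
  have h4 : (fun M : Matrix (Fin 1) (Fin 1) D => M 0 0) ⁻¹'
      (AddSubgroup.closure {x : D | ∃ u ∈ (sc1 D) ⁻¹' V', u * star u = 1 ∧ x = u - 1} : Set D) ∈
        𝓝 (0 : Matrix (Fin 1) (Fin 1) D) := h3.continuousAt.preimage_mem_nhds (by simpa using h2)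
  refine mem_of_superset h4 fun M hM => ?_
  have h5 : ∀ x ∈ AddSubgroup.closure
      {x : D | ∃ u ∈ (sc1 D) ⁻¹' V', u * star u = 1 ∧ x = u - 1},
      sc1 D x ∈ AddSubgroup.closure {d | ∃ u ∈ V, d = u - 1} := by
    intro x hx
    induction hx using AddSubgroup.closure_induction with
    | mem x hx =>
      obtain ⟨u, hu, hu1, rfl⟩ := hx
      refine AddSubgroup.subset_closure ⟨sc1 D u, hsub ⟨hu, ?_⟩, ?_⟩
      · simpa [sc1] using hu1
      · rw [map_sub, sc1_one]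
    | zero => rw [map_zero]; exact AddSubgroup.zero_mem _
    | add a b _ _ ha hb => rw [map_add]; exact AddSubgroup.add_mem _ ha hb
    | neg a _ ha => rw [map_neg]; exact AddSubgroup.neg_mem _ ha
  have h6 := h5 _ hM
  rwa [sc1_apply00] at h6

/-- distinct small norms -/
theorem exists_fam (hK : ∀ O ∈ 𝓝 (0 : K), ∀ S : Finset K, ∃ ν ∈ O, ν ≠ 0 ∧ ν * star ν ∉ S)
    {O : Set K} (hO : O ∈ 𝓝 (0 : K)) (n : ℕ) :
    ∃ ν : Fin n → K, (∀ j, ν j ∈ O ∧ ν j ≠ 0) ∧
      Function.Injective fun j => ν j * star (ν j) := by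
  induction n with
  | zero => exact ⟨fun j => j.elim0, fun j => j.elim0, fun j => j.elim0⟩
  | succ n ih =>
    obtain ⟨ν, h1, h2⟩ := ih
    classical
    obtain ⟨x, hx, hx0, hxS⟩ := hK O hO (Finset.univ.image fun j => ν j * star (ν j))
    refine ⟨Fin.cons x ν, fun j => ?_, ?_⟩
    · refine Fin.cases ?_ (fun j => ?_) j
      · exact ⟨hx, hx0⟩
      · exact h1 j
    · have h3 : ∀ j, x * star x ≠ ν j * star (ν j) := fun j h =>
        hxS (by rw [h]; exact Finset.mem_image_of_mem _ (Finset.mem_univ j))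
      intro i j hij
      revert hij
      refine Fin.cases ?_ (fun i => ?_) i
      · refine Fin.cases ?_ (fun j => ?_) j
        · intro _; rfl
        · intro h; exact absurd h (by simpa using h3 j)
      · refine Fin.cases ?_ (fun j => ?_) j
        · intro h; exact absurd h.symm (by simpa using h3 i)
        · intro h
          have := h2 (by simpa using h)
          rw [this]

theorem tNn : Tendsto (fun ν : K => ν * star ν) (𝓝 0) (𝓝 0) := by
  have : Continuous fun ν : K => ν * star ν := continuous_id.mul continuous_star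
  simpa using this.tendsto 0

theorem tN1 [ContinuousSMul K D] {b : ℕ} {X : Type*} {G : Filter X} {f : X → K}
    {g : X → Matrix (Fin b) (Fin b) D} {B : Matrix (Fin b) (Fin b) D}
    (hf : Tendsto f G (𝓝 0)) (hg : Tendsto g G (𝓝 B)) :
    Tendsto (fun x => 1 - (f x * star (f x)) • g x) G (𝓝 1) := by
  have h := (tNn.comp hf).smul hg
  simpa using h.const_sub 1

theorem tR1 [ContinuousSMul K D] {b : ℕ} {X : Type*} {G : Filter X} {f : X → K}
    {g : X → Matrix (Fin b) (Fin b) D} {B : Matrix (Fin b) (Fin b) D}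
    (hf : Tendsto f G (𝓝 0)) (hg : Tendsto g G (𝓝 B)) :
    (∀ᶠ x in G, IsUnit (1 - (f x * star (f x)) • g x)) ∧
      Tendsto (fun x => Ring.inverse (1 - (f x * star (f x)) • g x)) G (𝓝 1) := by
  have h := tendsto_inverse isUnit_one (tN1 hf hg)
  rwa [Ring.inverse_one] at h

/-- the algebra of the two moves -/
theorem two_moves {b : ℕ} (r a Q Ri : Matrix (Fin b) (Fin b) D) (ν ν' : K)
    (hQ : Q = 1 - (ν * ν') • r) (h1 : Q * Ri = 1) (h2 : Ri * Q = 1)
    (X Y y : Matrix (Fin b) (Fin 1) D) (hy : y = Ri * (Y - ν' • (r * X))) :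
    y + ν' • (r * (X - ν • y)) = Y ∧
      y + ν' • (a * (X - ν • y)) = (ν' • ((a - r) * Ri)) * X + ((1 - (ν * ν') • a) * Ri) * Y := by
  have hc : Ri * r = r * Ri := by
    have e1 : Q * r = r * Q := by
      rw [hQ, Matrix.sub_mul, Matrix.mul_sub, Matrix.one_mul, Matrix.mul_one, Matrix.smul_mul,
        Matrix.mul_smul]
    calc Ri * r = Ri * r * (Q * Ri) := by rw [h1, Matrix.mul_one]
      _ = Ri * (r * Q) * Ri := by simp only [Matrix.mul_assoc]
      _ = Ri * (Q * r) * Ri := by rw [e1]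
      _ = Ri * Q * (r * Ri) := by simp only [Matrix.mul_assoc]
      _ = r * Ri := by rw [h2, Matrix.one_mul]
  have hQy : Q * y = Y - ν' • (r * X) := by rw [hy, ← Matrix.mul_assoc, h1, Matrix.one_mul]
  have hsplit : ∀ B : Matrix (Fin b) (Fin b) D, y + ν' • (B * (X - ν • y)) =
      (1 - (ν * ν') • B) * y + ν' • (B * X) := by
    intro B
    rw [Matrix.mul_sub, Matrix.mul_smul, smul_sub, smul_smul, Matrix.sub_mul, Matrix.one_mul,
      Matrix.smul_mul, mul_comm ν' ν]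
    abel
  refine ⟨?_, ?_⟩
  · rw [hsplit, ← hQ, hQy, sub_add_cancel]
  · have e2 : (1 - (ν * ν') • a) * Ri * r = a - (a - r) * Ri := by
      have e3 : a = a * Q * Ri := by rw [Matrix.mul_assoc, h1, Matrix.mul_one]
      have e4 : a - (a - r) * Ri = (a * Q - (a - r)) * Ri := by
        rw [Matrix.sub_mul (a * Q), ← e3]
      rw [e4, Matrix.mul_assoc, hc, ← Matrix.mul_assoc, hQ]
      congr 1
      rw [Matrix.sub_mul, Matrix.one_mul, Matrix.mul_sub, Matrix.mul_one, Matrix.smul_mul,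
        Matrix.mul_smul]
      abel
    have e5 : (1 - (ν * ν') • a) * Ri * (ν' • (r * X)) =
        ν' • (a * X) - ν' • ((a - r) * Ri * X) := by
      rw [Matrix.mul_smul, ← Matrix.mul_assoc, e2, Matrix.sub_mul, smul_sub]
    rw [hsplit, hy, ← Matrix.mul_assoc, Matrix.mul_sub, e5, Matrix.smul_mul]
    abel

open Classical in
/-- **Lemma L**, the text of the chain. -/
theorem lemL (hcont : Continuous (algebraMap K D))
    (hspan : ∀ O ∈ 𝓝 (1 : D),
      (AddSubgroup.closure {x : D | ∃ u ∈ O, u * star u = 1 ∧ x = u - 1} : Set D) ∈ 𝓝 (0 : D))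
    (hK : ∀ O ∈ 𝓝 (0 : K), ∀ S : Finset K, ∃ ν ∈ O, ν ≠ 0 ∧ ν * star ν ∉ S)
    {b m : ℕ} (π0 : Pi) (A : Set Pi) (ρ α : Pi → Matrix (Fin b) (Fin b) D)
    (hρ : ContinuousAt ρ π0) (hα : ContinuousAt α π0) (w0 : Matrix (Fin b) (Fin 1) D)
    (F : Pi → Matrix (Fin b) (Fin 1) D → Matrix (Fin b) (Fin 1) D → E)
    (H1 : ∀ᶠ x : Pi × Matrix (Fin b) (Fin 1) D × Matrix (Fin b) (Fin 1) D × K in
      𝓝 (π0, 0, w0, 0), x.1 ∈ A →
        F x.1 (x.2.1 + x.2.2.2 • x.2.2.1) (x.2.2.1 + star x.2.2.2 • (ρ x.1 * x.2.1)) =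
          F x.1 x.2.1 x.2.2.1)
    (H2 : ∀ᶠ x : Pi × Matrix (Fin b) (Fin 1) D × Matrix (Fin b) (Fin 1) D × K in
      𝓝 (π0, 0, w0, 0), x.1 ∈ A →
        F x.1 (x.2.1 + x.2.2.2 • x.2.2.1) (x.2.2.1 + star x.2.2.2 • (α x.1 * x.2.1)) =
          F x.1 x.2.1 x.2.2.1)
    (H3 : ∀ᶠ x : Pi × Matrix (Fin b) (Fin 1) D × Matrix (Fin b) (Fin 1) D × D in
      𝓝 (π0, 0, w0, 1), x.1 ∈ A → x.2.2.2 * star x.2.2.2 = 1 →
        F x.1 (x.2.1.map (· * x.2.2.2)) x.2.2.1 = F x.1 x.2.1 x.2.2.1)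
    (hgen : ∀ c : Fin m → K, Function.Injective c → (∀ j, IsUnit (1 - c j • ρ π0)) →
      ∃ R : Matrix (Fin m) (Fin b) D, (Matrix.of fun i j =>
        ((α π0 - ρ π0) * Ring.inverse (1 - c j • ρ π0) * w0) i 0) * R = 1) :
    ∀ᶠ x : Pi × Matrix (Fin b) (Fin 1) D × Matrix (Fin b) (Fin 1) D ×
        Matrix (Fin b) (Fin 1) D × Matrix (Fin b) (Fin 1) D in 𝓝 (π0, 0, w0, 0, w0),
      x.1 ∈ A → F x.1 x.2.1 x.2.2.1 = F x.1 x.2.2.2.1 x.2.2.2.2 := by
  have : ContinuousSMul K D := ⟨by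
    simp only [Algebra.smul_def]
    exact (hcont.comp continuous_fst).mul continuous_snd⟩
  set F' : Pi → Matrix (Fin b) (Fin 1) D → Matrix (Fin b) (Fin 1) D → Option E :=
    fun p w1 w2 => if p ∈ A then some (F p w1 w2) else none with hF'
  have hF1 : ∀ {p w1 w2 w3 w4}, (p ∈ A → F p w1 w2 = F p w3 w4) → F' p w1 w2 = F' p w3 w4 := by
    intro p w1 w2 w3 w4 h
    by_cases hp : p ∈ A
    · simp only [hF', if_pos hp, h hp]
    · simp only [hF', if_neg hp]
  have hF2 : ∀ {p w1 w2 w3 w4}, F' p w1 w2 = F' p w3 w4 → p ∈ A → F p w1 w2 = F p w3 w4 := by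
    intro p w1 w2 w3 w4 h hp
    simpa only [hF', if_pos hp, Option.some.injEq] using h
  -- the inverse
  set R : K → Pi → Matrix (Fin b) (Fin b) D := fun ν p =>
    Ring.inverse (1 - (ν * star ν) • ρ p) with hR
  have tst : Tendsto (fun ν : K => star ν) (𝓝 0) (𝓝 0) := by
    simpa using (continuous_star (R := K)).tendsto 0
  set σ : K → Pi → Matrix (Fin b) (Fin b) D := fun ν p => star ν • ((α p - ρ p) * R ν p) with hσd
  set ω : K → Pi → Matrix (Fin b) (Fin b) D := fun ν p =>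
    (1 - (ν * star ν) • α p) * R ν p with hωd
  have hinv : ∀ᶠ B in 𝓝 (1 : Matrix (Fin b) (Fin b) D), IsUnit B :=
    eventually_isUnit isUnit_one
  have hinvc : ContinuousAt (Ring.inverse : Matrix (Fin b) (Fin b) D → _) 1 :=
    continuousAt_inverse isUnit_one
  -- the four coordinates
  have c1 : Tendsto (fun x : K × Pi × Matrix (Fin b) (Fin 1) D × Matrix (Fin b) (Fin 1) D =>
      x.1) (𝓝 0 ×ˢ 𝓝 π0 ×ˢ 𝓝 0 ×ˢ 𝓝 w0) (𝓝 0) := tendsto_fst
  have c2 : Tendsto (fun x : K × Pi × Matrix (Fin b) (Fin 1) D × Matrix (Fin b) (Fin 1) D =>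
      x.2.1) (𝓝 0 ×ˢ 𝓝 π0 ×ˢ 𝓝 0 ×ˢ 𝓝 w0) (𝓝 π0) := tendsto_fst.comp tendsto_snd
  have c3 : Tendsto (fun x : K × Pi × Matrix (Fin b) (Fin 1) D × Matrix (Fin b) (Fin 1) D =>
      x.2.2.1) (𝓝 0 ×ˢ 𝓝 π0 ×ˢ 𝓝 0 ×ˢ 𝓝 w0) (𝓝 0) :=
    (tendsto_fst.comp tendsto_snd).comp tendsto_snd
  have c4 : Tendsto (fun x : K × Pi × Matrix (Fin b) (Fin 1) D × Matrix (Fin b) (Fin 1) D =>
      x.2.2.2) (𝓝 0 ×ˢ 𝓝 π0 ×ˢ 𝓝 0 ×ˢ 𝓝 w0) (𝓝 w0) :=
    (tendsto_snd.comp tendsto_snd).comp tendsto_snd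
  have key : ∀ᶠ x : Pi × (Matrix (Fin b) (Fin 1) D × Matrix (Fin b) (Fin 1) D) ×
      (Matrix (Fin b) (Fin 1) D × Matrix (Fin b) (Fin 1) D) in
      𝓝 π0 ×ˢ 𝓝 (0, w0) ×ˢ 𝓝 (0, w0), F' x.1 x.2.1.1 x.2.1.2 = F' x.1 x.2.2.1 x.2.2.2 := by
    refine lemmaL F' (𝓝 π0) w0 {u : Matrix (Fin 1) (Fin 1) D | u 0 0 * star (u 0 0) = 1}
      (span1 hspan) hinv hinvc ?_ ?_ σ ω (fun ν => σ ν π0) ?_ ?_ ?_ ?_ ?_
      (fun ν p => star ν • ρ p) (fun ν => star ν • ρ π0) ?_ ?_
    · -- two scalars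
      intro V hV
      obtain ⟨η, h1, h2, -⟩ := hK V hV ∅
      obtain ⟨η', h3, h4, h5⟩ := hK V hV {η * star η}
      refine ⟨η, h1, η', h3, h2, h4, fun h => h5 ?_⟩
      rw [h]; exact Finset.mem_singleton_self _
    · -- `U`
      have d1 : Tendsto (fun x : Matrix (Fin 1) (Fin 1) D × Pi × Matrix (Fin b) (Fin 1) D ×
          Matrix (Fin b) (Fin 1) D => (x.2.1, x.2.2.1, x.2.2.2, x.1 0 0))
          (𝓝[{u : Matrix (Fin 1) (Fin 1) D | u 0 0 * star (u 0 0) = 1}] 1 ×ˢ 𝓝 π0 ×ˢ 𝓝 0 ×ˢ 𝓝 w0)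
          (𝓝 (π0, 0, w0, 1)) := by
        have e1 : Tendsto (fun x : Matrix (Fin 1) (Fin 1) D × Pi × Matrix (Fin b) (Fin 1) D ×
          Matrix (Fin b) (Fin 1) D => x.1 0 0)
          (𝓝[{u : Matrix (Fin 1) (Fin 1) D | u 0 0 * star (u 0 0) = 1}] 1 ×ˢ 𝓝 π0 ×ˢ 𝓝 0 ×ˢ 𝓝 w0)
          (𝓝 1) := by
          have e2 : Continuous fun M : Matrix (Fin 1) (Fin 1) D => M 0 0 :=
            continuous_id.matrix_elem 0 0
          have e3 := (e2.tendsto 1).comp ((tendsto_fst (f := 𝓝[{u : Matrix (Fin 1) (Fin 1) D |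
            u 0 0 * star (u 0 0) = 1}] 1) (g := 𝓝 π0 ×ˢ 𝓝 (0 : Matrix (Fin b) (Fin 1) D) ×ˢ
              𝓝 w0)).mono_right nhdsWithin_le_nhds)
          rw [Matrix.one_apply_eq] at e3
          exact e3
        exact (tendsto_fst.comp tendsto_snd).prodMk_nhds
          (((tendsto_fst.comp tendsto_snd).comp tendsto_snd).prodMk_nhds
          (((tendsto_snd.comp tendsto_snd).comp tendsto_snd).prodMk_nhds e1))
      have d2 : ∀ᶠ x : Matrix (Fin 1) (Fin 1) D × Pi × Matrix (Fin b) (Fin 1) D ×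
          Matrix (Fin b) (Fin 1) D in
          (𝓝[{u : Matrix (Fin 1) (Fin 1) D | u 0 0 * star (u 0 0) = 1}] 1 ×ˢ 𝓝 π0 ×ˢ 𝓝 0 ×ˢ
            𝓝 w0), x.1 0 0 * star (x.1 0 0) = 1 :=
        tendsto_fst.eventually (self_mem_nhdsWithin (a := (1 : Matrix (Fin 1) (Fin 1) D)))
      filter_upwards [d1.eventually H3, d2] with x h1 h2
      refine hF1 fun hp => ?_
      have h3 := h1 hp h2
      have h4 : x.2.2.1 * x.1 = x.2.2.1.map (· * x.1 0 0) := by
        ext i j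
        fin_cases j
        simp [Matrix.mul_apply]
      rw [h4]
      exact h3
    · -- `σ → 0`
      have h1 := (tR1 (f := fun x : K × Pi => x.1) (g := fun x : K × Pi => ρ x.2)
        (G := 𝓝 0 ×ˢ 𝓝 π0) tendsto_fst (hρ.tendsto.comp tendsto_snd)).2
      have h2 : Tendsto (fun x : K × Pi => α x.2 - ρ x.2) (𝓝 0 ×ˢ 𝓝 π0) (𝓝 (α π0 - ρ π0)) :=
        (hα.tendsto.comp tendsto_snd).sub (hρ.tendsto.comp tendsto_snd)
      have h3 := (tst.comp (tendsto_fst (f := 𝓝 (0 : K)) (g := 𝓝 π0))).smul (tendsto_mmul h2 h1)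
      rw [zero_smul] at h3
      exact h3
    · -- `ω → 1`
      have h1 := (tR1 (f := fun x : K × Pi => x.1) (g := fun x : K × Pi => ρ x.2)
        (G := 𝓝 0 ×ˢ 𝓝 π0) tendsto_fst (hρ.tendsto.comp tendsto_snd)).2
      have h2 := tN1 (f := fun x : K × Pi => x.1) (g := fun x : K × Pi => α x.2)
        (G := 𝓝 0 ×ˢ 𝓝 π0) tendsto_fst (hα.tendsto.comp tendsto_snd)
      have h3 := tendsto_mmul h2 h1
      rw [Matrix.one_mul] at h3
      exact h3
    · -- `σ ν` is continuous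
      have h1 := (tR1 (f := fun ν : K => ν) (g := fun _ : K => ρ π0)
        (G := 𝓝 0) tendsto_id tendsto_const_nhds).1
      filter_upwards [h1] with ν h2
      have h3 : Tendsto (fun p => 1 - (ν * star ν) • ρ p) (𝓝 π0)
          (𝓝 (1 - (ν * star ν) • ρ π0)) := (hρ.tendsto.const_smul _).const_sub 1
      have h4 := (tendsto_inverse h2 h3).2
      exact (tendsto_mmul (hα.tendsto.sub hρ.tendsto) h4).const_smul (star ν)
    · -- the unipotent moves
      have tρ := hρ.tendsto.comp c2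
      have hu := (tR1 c1 tρ).1
      have hRt := (tR1 c1 tρ).2
      have tρX := tendsto_mmul tρ c3
      rw [Matrix.mul_zero] at tρX
      have ty2 := tendsto_mmul hRt (c4.sub ((tst.comp c1).smul tρX))
      rw [smul_zero, sub_zero, Matrix.one_mul] at ty2
      have ty1 := c3.sub (c1.smul ty2)
      rw [zero_smul, sub_zero] at ty1
      have tt := c2.prodMk_nhds (ty1.prodMk_nhds (ty2.prodMk_nhds c1))
      filter_upwards [tt.eventually H1, tt.eventually H2, hu] with x g1 g2 g3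
      refine hF1 fun hp => ?_
      have g1' := g1 hp
      have g2' := g2 hp
      simp only [Function.comp_apply] at g1' g2'
      rw [sub_add_cancel] at g1' g2'
      have g4 := two_moves (ρ x.2.1) (α x.2.1) _ _ x.1 (star x.1) rfl
        (Ring.mul_inverse_cancel _ g3) (Ring.inverse_mul_cancel _ g3) x.2.2.1 x.2.2.2 _ rfl
      rw [g4.1] at g1'
      rw [g4.2] at g2'
      exact g1'.trans g2'.symm
    · -- the spanning condition
      intro V hV
      have h1 := (tR1 (f := fun ν : K => ν) (g := fun _ : K => ρ π0)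
        (G := 𝓝 0) tendsto_id tendsto_const_nhds).1
      obtain ⟨ν, h2, h3⟩ := exists_fam hK (inter_mem hV h1) m
      obtain ⟨R', hR'⟩ := hgen (fun j => ν j * star (ν j)) h3 fun j => (h2 j).1.2
      refine ⟨m, ν, fun j => (star (ν j))⁻¹ • Matrix.of fun _ i => R' j i,
        fun j => (h2 j).1.1, ?_⟩
      rw [← hR']
      ext i i'
      rw [Matrix.sum_apply, Matrix.mul_apply]
      refine Finset.sum_congr rfl fun j _ => ?_
      have h4 : star (ν j) ≠ 0 := star_ne_zero.2 (h2 j).2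
      simp only [hσd]
      rw [Matrix.smul_mul, Matrix.smul_mul, Matrix.mul_smul, smul_smul, mul_inv_cancel₀ h4,
        one_smul, Matrix.mul_apply]
      simp [hR]
    · -- `τ`
      exact Eventually.of_forall fun ν => hρ.tendsto.const_smul (star ν)
    · -- the move
      have tt := c2.prodMk_nhds (c3.prodMk_nhds (c4.prodMk_nhds c1))
      filter_upwards [tt.eventually H1] with x h1
      refine hF1 fun hp => ?_
      have h2 := h1 hp
      rw [Matrix.smul_mul]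
      exact h2.symm
  -- conclusion
  have tt : Tendsto (fun x : Pi × Matrix (Fin b) (Fin 1) D × Matrix (Fin b) (Fin 1) D ×
      Matrix (Fin b) (Fin 1) D × Matrix (Fin b) (Fin 1) D =>
      (x.1, (x.2.1, x.2.2.1), (x.2.2.2.1, x.2.2.2.2))) (𝓝 (π0, 0, w0, 0, w0))
      (𝓝 π0 ×ˢ 𝓝 (0, w0) ×ˢ 𝓝 (0, w0)) := by
    rw [← nhds_prod_eq, ← nhds_prod_eq]
    refine Continuous.tendsto' ?_ _ _ rfl
    fun_prop
  filter_upwards [tt.eventually key] with x hx
  exact hF2 hx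

end Vale.Agent.P011.H27.Odd
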