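import Mathlib

/-!
**Lemma L: translations give local constancy.**
-/

open Matrix Filter Topology

set_option linter.unusedSectionVars false

namespace Vale.Agent.P011.H27.Odd

section nonarch

theorem exists_sub_pi {ι G : Type*} [Finite ι] [AddCommGroup G] [TopologicalSpace G]
    (hG : ∀ N ∈ 𝓝 (0 : G), ∃ S : AddSubgroup G, (S : Set G) ∈ 𝓝 (0 : G) ∧ (S : Set G) ⊆ N)
    {N : Set (ι → G)} (hN : N ∈ 𝓝 (0 : ι → G)) :
    ∃ S : AddSubgroup (ι → G), (S : Set (ι → G)) ∈ 𝓝 (0 : ι → G) ∧ (S : Set (ι → G)) ⊆ N := by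
  rw [nhds_pi, Filter.mem_pi] at hN
  obtain ⟨I, -, t, ht, hI⟩ := hN
  choose S hS hSt using fun i => hG (t i) (ht i)
  refine ⟨AddSubgroup.pi Set.univ S, ?_, ?_⟩
  · rw [AddSubgroup.coe_pi]
    exact set_pi_mem_nhds Set.finite_univ fun i _ => hS i
  · intro x hx
    refine hI fun i _ => hSt i ?_
    exact (AddSubgroup.mem_pi Set.univ).1 hx i (Set.mem_univ i)

variable {D : Type*} [Ring D] [TopologicalSpace D] [NonarchimedeanAddGroup D]
  {ι o : Type*} [Finite ι] [Finite o]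

/-- small additive subgroups of the columns -/
theorem exists_sub (w0 : Matrix ι o D) {N : Set (Matrix ι o D)} (hN : N ∈ 𝓝 w0) :
    ∃ S : AddSubgroup (Matrix ι o D), (S : Set (Matrix ι o D)) ∈ 𝓝 (0 : Matrix ι o D) ∧
      ∀ Y, Y - w0 ∈ S → Y ∈ N := by
  have h1 : Tendsto (fun s : Matrix ι o D => w0 + s) (𝓝 0) (𝓝 w0) := by
    have : Continuous (fun s : Matrix ι o D => w0 + s) := by
      refine continuous_matrix fun i j => ?_
      exact continuous_const.add ((continuous_apply j).comp (continuous_apply i))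
    simpa using this.tendsto 0
  have h2 := h1 hN
  rw [mem_map] at h2
  obtain ⟨S, hS, hSN⟩ := exists_sub_pi (G := o → D) (ι := ι)
    (fun N hN => exists_sub_pi (G := D) (ι := o) (fun N hN => by
      obtain ⟨V, hV⟩ := NonarchimedeanAddGroup.is_nonarchimedean N hN
      exact ⟨V, V.isOpen.mem_nhds V.zero_mem, hV⟩) hN) h2
  refine ⟨S, hS, fun Y hY => ?_⟩
  have : w0 + (Y - w0) ∈ N := hSN hY
  rwa [add_sub_cancel] at this

theorem tendsto_mmul {D X : Type*} [Ring D] [TopologicalSpace D] [IsTopologicalRing D]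
    {a b c : Type*} [Fintype b] {f : X → Matrix a b D} {g : X → Matrix b c D}
    {G : Filter X} {A : Matrix a b D} {B : Matrix b c D} (hf : Tendsto f G (𝓝 A))
    (hg : Tendsto g G (𝓝 B)) : Tendsto (fun x => f x * g x) G (𝓝 (A * B)) := by
  have cmul : Continuous fun z : Matrix a b D × Matrix b c D => z.1 * z.2 :=
    continuous_fst.matrix_mul continuous_snd
  exact (cmul.tendsto (A, B)).comp (hf.prodMk_nhds hg)

end nonarch

section main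

variable {D : Type*} [DivisionRing D] [TopologicalSpace D] [IsTopologicalRing D]
  [NonarchimedeanAddGroup D]
  {K : Type*} [Field K] [TopologicalSpace K] [IsTopologicalRing K] [Algebra K D]
  [ContinuousSMul K D]
  {ι o : Type*} [Fintype ι] [DecidableEq ι] [Fintype o] [DecidableEq o]
  {P E : Type*}

/-- **Step A**: replace `w1` by `w1 u`. -/
theorem stepA
    (F : P → Matrix ι o D → Matrix ι o D → E) (l : Filter P) (w0 : Matrix ι o D)
    (U : Set (Matrix o o D))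
    (hinv : ∀ᶠ B in 𝓝 (1 : Matrix ι ι D), IsUnit B)
    (hinvc : ContinuousAt (Ring.inverse : Matrix ι ι D → Matrix ι ι D) 1)
    (hU : ∀ᶠ x : Matrix o o D × P × Matrix ι o D × Matrix ι o D in
      𝓝[U] 1 ×ˢ l ×ˢ 𝓝 0 ×ˢ 𝓝 w0, F x.2.1 (x.2.2.1 * x.1) x.2.2.2 = F x.2.1 x.2.2.1 x.2.2.2)
    (σ ω : K → P → Matrix ι ι D)
    (hσ : Tendsto (fun x : K × P => σ x.1 x.2) (𝓝 0 ×ˢ l) (𝓝 0))
    (hω : Tendsto (fun x : K × P => ω x.1 x.2) (𝓝 0 ×ˢ l) (𝓝 1))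
    (hM : ∀ᶠ x : K × P × Matrix ι o D × Matrix ι o D in 𝓝 0 ×ˢ l ×ˢ 𝓝 0 ×ˢ 𝓝 w0,
      F x.2.1 x.2.2.1 x.2.2.2 =
        F x.2.1 x.2.2.1 (σ x.1 x.2.1 * x.2.2.1 + ω x.1 x.2.1 * x.2.2.2)) :
    ∀ᶠ x : K × Matrix o o D × P × Matrix ι o D × Matrix ι o D in
      𝓝 0 ×ˢ 𝓝[U] 1 ×ˢ l ×ˢ 𝓝 0 ×ˢ 𝓝 w0,
      F x.2.2.1 x.2.2.2.1 x.2.2.2.2 =
        F x.2.2.1 x.2.2.2.1 (x.2.2.2.2 + σ x.1 x.2.2.1 * x.2.2.2.1 * (x.2.1 - 1)) := by
  set G : Filter (K × Matrix o o D × P × Matrix ι o D × Matrix ι o D) :=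
    𝓝 0 ×ˢ 𝓝[U] 1 ×ˢ l ×ˢ 𝓝 0 ×ˢ 𝓝 w0 with hG
  have tν : Tendsto (fun x : K × Matrix o o D × P × Matrix ι o D × Matrix ι o D => x.1) G
      (𝓝 0) := tendsto_fst
  have tu : Tendsto (fun x : K × Matrix o o D × P × Matrix ι o D × Matrix ι o D => x.2.1) G
      (𝓝[U] 1) := tendsto_fst.comp tendsto_snd
  have tp : Tendsto (fun x : K × Matrix o o D × P × Matrix ι o D × Matrix ι o D => x.2.2.1) G
      l := (tendsto_fst.comp tendsto_snd).comp tendsto_snd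
  have tw : Tendsto (fun x : K × Matrix o o D × P × Matrix ι o D × Matrix ι o D => x.2.2.2.1) G
      (𝓝 0) := ((tendsto_fst.comp tendsto_snd).comp tendsto_snd).comp tendsto_snd
  have tY : Tendsto (fun x : K × Matrix o o D × P × Matrix ι o D × Matrix ι o D => x.2.2.2.2) G
      (𝓝 w0) := ((tendsto_snd.comp tendsto_snd).comp tendsto_snd).comp tendsto_snd
  have tu1 : Tendsto (fun x : K × Matrix o o D × P × Matrix ι o D × Matrix ι o D => x.2.1) G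
      (𝓝 1) := tu.mono_right nhdsWithin_le_nhds
  have tσ : Tendsto (fun x : K × Matrix o o D × P × Matrix ι o D × Matrix ι o D =>
      σ x.1 x.2.2.1) G (𝓝 0) := hσ.comp (tν.prodMk tp)
  have tω : Tendsto (fun x : K × Matrix o o D × P × Matrix ι o D × Matrix ι o D =>
      ω x.1 x.2.2.1) G (𝓝 1) := hω.comp (tν.prodMk tp)
  have tωi : Tendsto (fun x : K × Matrix o o D × P × Matrix ι o D × Matrix ι o D =>
      Ring.inverse (ω x.1 x.2.2.1)) G (𝓝 1) := by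
    have := hinvc.tendsto.comp tω
    rwa [Ring.inverse_one] at this
  have hωu : ∀ᶠ x in G, IsUnit (ω x.1 x.2.2.1) := tω.eventually hinv
  -- the point
  set T : K × Matrix o o D × P × Matrix ι o D × Matrix ι o D → Matrix ι o D := fun x =>
    Ring.inverse (ω x.1 x.2.2.1) * (x.2.2.2.2 - σ x.1 x.2.2.1 * x.2.2.2.1) with hT
  have tσw : Tendsto (fun x : K × Matrix o o D × P × Matrix ι o D × Matrix ι o D =>
      σ x.1 x.2.2.1 * x.2.2.2.1) G (𝓝 0) := by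
    simpa using tendsto_mmul tσ tw
  have tT : Tendsto T G (𝓝 w0) := by
    have h := tendsto_mmul tωi (tY.sub tσw)
    rwa [sub_zero, Matrix.one_mul] at h
  have twu : Tendsto (fun x : K × Matrix o o D × P × Matrix ι o D × Matrix ι o D =>
      x.2.2.2.1 * x.2.1) G (𝓝 0) := by
    simpa using tendsto_mmul tw tu1
  have tσwu : Tendsto (fun x : K × Matrix o o D × P × Matrix ι o D × Matrix ι o D =>
      σ x.1 x.2.2.1 * (x.2.2.2.1 * x.2.1)) G (𝓝 0) := by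
    simpa using tendsto_mmul tσ twu
  have tωT : Tendsto (fun x : K × Matrix o o D × P × Matrix ι o D × Matrix ι o D =>
      ω x.1 x.2.2.1 * T x) G (𝓝 w0) := by
    simpa using tendsto_mmul tω tT
  have tZ : Tendsto (fun x : K × Matrix o o D × P × Matrix ι o D × Matrix ι o D =>
      σ x.1 x.2.2.1 * (x.2.2.2.1 * x.2.1) + ω x.1 x.2.2.1 * T x) G (𝓝 w0) := by
    simpa using tσwu.add tωT
  have e1 := (tν.prodMk (tp.prodMk (tw.prodMk tT))).eventually hM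
  have e2 := (tu.prodMk (tp.prodMk (tw.prodMk tT))).eventually hU
  have e3 := (tν.prodMk (tp.prodMk (twu.prodMk tT))).eventually hM
  have e4 := (tu.prodMk (tp.prodMk (tw.prodMk tZ))).eventually hU
  filter_upwards [e1, e2, e3, e4, hωu] with x h1 h2 h3 h4 h5
  have hwT : ω x.1 x.2.2.1 * T x = x.2.2.2.2 - σ x.1 x.2.2.1 * x.2.2.2.1 := by
    rw [hT]
    simp only
    rw [← Matrix.mul_assoc, Ring.mul_inverse_cancel _ h5, Matrix.one_mul]
  rw [hwT, add_sub_cancel] at h1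
  rw [hwT] at h3 h4
  rw [← h1, ← h2, h3, h4]
  congr 1
  rw [Matrix.mul_sub, Matrix.mul_one, Matrix.mul_assoc]
  abel

/-- **Steps B and C**: for `w1` near `η w0` the function does not depend on the second
column. -/
theorem stepC
    (F : P → Matrix ι o D → Matrix ι o D → E) (l : Filter P) (w0 : Matrix ι o D)
    (U : Set (Matrix o o D))
    (hspan : ∀ V ∈ 𝓝[U] (1 : Matrix o o D),
      ((AddSubgroup.closure {d | ∃ u ∈ V, d = u - 1} : AddSubgroup (Matrix o o D)) :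
        Set (Matrix o o D)) ∈ 𝓝 (0 : Matrix o o D))
    (hinv : ∀ᶠ B in 𝓝 (1 : Matrix ι ι D), IsUnit B)
    (hinvc : ContinuousAt (Ring.inverse : Matrix ι ι D → Matrix ι ι D) 1)
    (σ : K → P → Matrix ι ι D) (σ0 : K → Matrix ι ι D)
    (hσ0 : ∀ᶠ ν in 𝓝 (0 : K), Tendsto (σ ν) l (𝓝 (σ0 ν)))
    (hA : ∀ᶠ x : K × Matrix o o D × P × Matrix ι o D × Matrix ι o D in
      𝓝 0 ×ˢ 𝓝[U] 1 ×ˢ l ×ˢ 𝓝 0 ×ˢ 𝓝 w0,
      F x.2.2.1 x.2.2.2.1 x.2.2.2.2 =
        F x.2.2.1 x.2.2.2.1 (x.2.2.2.2 + σ x.1 x.2.2.1 * x.2.2.2.1 * (x.2.1 - 1)))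
    (hS : ∀ V ∈ 𝓝 (0 : K), ∃ (m : ℕ) (ν : Fin m → K) (X : Fin m → Matrix o ι D),
      (∀ k, ν k ∈ V) ∧ ∑ k, σ0 (ν k) * w0 * X k = 1) :
    ∀ᶠ η in 𝓝 (0 : K), η ≠ 0 →
      ∀ᶠ x : P × Matrix ι o D × Matrix ι o D in l ×ˢ 𝓝 (η • w0) ×ˢ 𝓝 w0,
        F x.1 x.2.1 x.2.2 = F x.1 x.2.1 w0 := by
  have hc := hA.curry
  obtain ⟨m, ν, X, hν, hX⟩ := hS _ (hσ0.and hc)
  have hall : ∀ᶠ y : Matrix o o D × P × Matrix ι o D × Matrix ι o D in
      𝓝[U] 1 ×ˢ l ×ˢ 𝓝 0 ×ˢ 𝓝 w0, ∀ k, F y.2.1 y.2.2.1 y.2.2.2 =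
        F y.2.1 y.2.2.1 (y.2.2.2 + σ (ν k) y.2.1 * y.2.2.1 * (y.1 - 1)) :=
    eventually_all.2 fun k => (hν k).2
  obtain ⟨U1, hU1, R, hR, hs1⟩ := mem_prod_iff.1 hall
  obtain ⟨L1, hL1, R', hR', hs2⟩ := mem_prod_iff.1 hR
  obtain ⟨N1, hN1, N2, hN2, hs3⟩ := mem_prod_iff.1 hR'
  obtain ⟨S, hS0, hSN⟩ := exists_sub w0 hN2
  have hall2 : ∀ᶠ y : Matrix o o D × P × Matrix ι o D in
      𝓝[U] 1 ×ˢ l ×ˢ 𝓝 0, ∀ k, σ (ν k) y.2.1 * y.2.2 * (y.1 - 1) ∈ S := by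
    refine eventually_all.2 fun k => ?_
    have t1 : Tendsto (fun y : Matrix o o D × P × Matrix ι o D => σ (ν k) y.2.1)
        (𝓝[U] 1 ×ˢ l ×ˢ 𝓝 0) (𝓝 (σ0 (ν k))) :=
      (hν k).1.comp (tendsto_fst.comp tendsto_snd)
    have t2 : Tendsto (fun y : Matrix o o D × P × Matrix ι o D => y.2.2)
        (𝓝[U] 1 ×ˢ l ×ˢ 𝓝 0) (𝓝 0) := tendsto_snd.comp tendsto_snd
    have t3 : Tendsto (fun y : Matrix o o D × P × Matrix ι o D => y.1 - 1)
        (𝓝[U] 1 ×ˢ l ×ˢ 𝓝 0) (𝓝 0) := by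
      have : Tendsto (fun y : Matrix o o D × P × Matrix ι o D => y.1)
        (𝓝[U] 1 ×ˢ l ×ˢ 𝓝 0) (𝓝 1) := tendsto_fst.mono_right nhdsWithin_le_nhds
      simpa using this.sub_const 1
    have t4 := tendsto_mmul (tendsto_mmul t1 t2) t3
    rw [Matrix.mul_zero] at t4
    exact t4.eventually hS0
  obtain ⟨U2, hU2, R2, hR2, hs4⟩ := mem_prod_iff.1 hall2
  obtain ⟨L2, hL2, N1', hN1', hs5⟩ := mem_prod_iff.1 hR2
  have eqk : ∀ u ∈ U1, ∀ p ∈ L1, ∀ w1 ∈ N1, ∀ Y, Y - w0 ∈ S → ∀ k,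
      F p w1 Y = F p w1 (Y + σ (ν k) p * w1 * (u - 1)) := by
    intro u hu p hp w1 hw1 Y hY k
    have h1 : (w1, Y) ∈ R' := hs3 (Set.mk_mem_prod hw1 (hSN Y hY))
    have h2 : (p, w1, Y) ∈ R := hs2 (Set.mk_mem_prod hp h1)
    have h3 := hs1 (Set.mk_mem_prod hu h2)
    exact h3 k
  have memk : ∀ u ∈ U2, ∀ p ∈ L2, ∀ w1 ∈ N1', ∀ k, σ (ν k) p * w1 * (u - 1) ∈ S := by
    intro u hu p hp w1 hw1 k
    have h2 : (p, w1) ∈ R2 := hs5 (Set.mk_mem_prod hp hw1)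
    have h3 := hs4 (Set.mk_mem_prod hu h2)
    exact h3 k
  set Λ : AddSubgroup (Matrix o o D) :=
    AddSubgroup.closure {d | ∃ u ∈ U1 ∩ U2, d = u - 1} with hΛ
  have hΛ0 : (Λ : Set (Matrix o o D)) ∈ 𝓝 (0 : Matrix o o D) :=
    hspan _ (inter_mem hU1 hU2)
  have hB : ∀ p ∈ L1 ∩ L2, ∀ w1 ∈ N1 ∩ N1', ∀ k, ∀ d ∈ Λ, σ (ν k) p * w1 * d ∈ S ∧
      ∀ Y, Y - w0 ∈ S → F p w1 (Y + σ (ν k) p * w1 * d) = F p w1 Y := by
    intro p hp w1 hw1 k d hd
    induction hd using AddSubgroup.closure_induction with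
    | mem d hd =>
      obtain ⟨u, hu, rfl⟩ := hd
      exact ⟨memk u hu.2 p hp.2 w1 hw1.2 k, fun Y hY =>
        (eqk u hu.1 p hp.1 w1 hw1.1 Y hY k).symm⟩
    | zero =>
      refine ⟨by simp, fun Y _ => by simp⟩
    | add a b _ _ ha hb =>
      refine ⟨by rw [Matrix.mul_add]; exact S.add_mem ha.1 hb.1, fun Y hY => ?_⟩
      rw [Matrix.mul_add, ← add_assoc, hb.2, ha.2 Y hY]
      rw [add_sub_right_comm]
      exact S.add_mem hY ha.1
    | neg a _ ha =>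
      refine ⟨by rw [Matrix.mul_neg]; exact S.neg_mem ha.1, fun Y hY => ?_⟩
      have h1 : Y + σ (ν k) p * w1 * -a - w0 ∈ S := by
        rw [add_sub_right_comm, Matrix.mul_neg]
        exact S.add_mem hY (S.neg_mem ha.1)
      have h2 := ha.2 _ h1
      rw [Matrix.mul_neg, neg_add_cancel_right] at h2
      rw [Matrix.mul_neg, h2]
  have hB' : ∀ p ∈ L1 ∩ L2, ∀ w1 ∈ N1 ∩ N1', ∀ d : Fin m → Matrix o o D, (∀ k, d k ∈ Λ) →
      ∀ s : Finset (Fin m), (∑ k ∈ s, σ (ν k) p * w1 * d k) ∈ S ∧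
      ∀ Y, Y - w0 ∈ S → F p w1 (Y + ∑ k ∈ s, σ (ν k) p * w1 * d k) = F p w1 Y := by
    intro p hp w1 hw1 d hd s
    induction s using Finset.induction_on with
    | empty => exact ⟨by simp, fun Y _ => by simp⟩
    | insert a s ha ih =>
      rw [Finset.sum_insert ha]
      refine ⟨S.add_mem (hB p hp w1 hw1 a (d a) (hd a)).1 ih.1, fun Y hY => ?_⟩
      rw [← add_assoc, ih.2, (hB p hp w1 hw1 a (d a) (hd a)).2 Y hY]
      rw [add_sub_right_comm]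
      exact S.add_mem hY (hB p hp w1 hw1 a (d a) (hd a)).1
  -- the choice of `η`
  have hη : ∀ᶠ η in 𝓝 (0 : K), N1 ∩ N1' ∈ 𝓝 (η • w0) := by
    have h1 : ∀ᶠ w in 𝓝 (0 : Matrix ι o D), N1 ∩ N1' ∈ 𝓝 w :=
      eventually_mem_nhds_iff.2 (inter_mem hN1 hN1')
    have h2 : Tendsto (fun η : K => η • w0) (𝓝 0) (𝓝 0) := by
      have : Continuous fun η : K => η • w0 := continuous_id.smul continuous_const
      simpa using this.tendsto 0
    exact h2.eventually h1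
  filter_upwards [hη] with η hη hη0
  set G : Filter (P × Matrix ι o D × Matrix ι o D) := l ×ˢ 𝓝 (η • w0) ×ˢ 𝓝 w0 with hG
  have tp : Tendsto (fun x : P × Matrix ι o D × Matrix ι o D => x.1) G l := tendsto_fst
  have tw : Tendsto (fun x : P × Matrix ι o D × Matrix ι o D => x.2.1) G (𝓝 (η • w0)) :=
    tendsto_fst.comp tendsto_snd
  have tY : Tendsto (fun x : P × Matrix ι o D × Matrix ι o D => x.2.2) G (𝓝 w0) :=
    tendsto_snd.comp tendsto_snd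
  set B : P × Matrix ι o D × Matrix ι o D → Matrix ι ι D := fun x =>
    ∑ k, σ (ν k) x.1 * x.2.1 * (η⁻¹ • X k) with hBd
  have tB : Tendsto B G (𝓝 1) := by
    have h1 : Tendsto B G (𝓝 (∑ k, σ0 (ν k) * (η • w0) * (η⁻¹ • X k))) := by
      refine tendsto_finsetSum _ fun k _ => ?_
      exact tendsto_mmul (tendsto_mmul ((hν k).1.comp tp) tw) tendsto_const_nhds
    have h2 : ∑ k, σ0 (ν k) * (η • w0) * (η⁻¹ • X k) = 1 := by
      rw [← hX]
      refine Finset.sum_congr rfl fun k _ => ?_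
      rw [Matrix.mul_smul, Matrix.mul_smul, Matrix.smul_mul, smul_smul, inv_mul_cancel₀ hη0,
        one_smul]
    rwa [h2] at h1
  have tBi : Tendsto (fun x => Ring.inverse (B x)) G (𝓝 1) := by
    have := hinvc.tendsto.comp tB
    rwa [Ring.inverse_one] at this
  have td : ∀ k, Tendsto (fun x : P × Matrix ι o D × Matrix ι o D =>
      (η⁻¹ • X k) * (Ring.inverse (B x) * (w0 - x.2.2))) G (𝓝 0) := by
    intro k
    have h1 : Tendsto (fun x : P × Matrix ι o D × Matrix ι o D => w0 - x.2.2) G (𝓝 0) := by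
      simpa using tY.const_sub w0
    have h2 := tendsto_mmul (tendsto_const_nhds (x := η⁻¹ • X k)) (tendsto_mmul tBi h1)
    rwa [Matrix.mul_zero, Matrix.mul_zero] at h2
  have tYS : ∀ᶠ x : P × Matrix ι o D × Matrix ι o D in G, x.2.2 - w0 ∈ S := by
    have h1 : Tendsto (fun x : P × Matrix ι o D × Matrix ι o D => x.2.2 - w0) G (𝓝 0) := by
      simpa using tY.sub_const w0
    exact h1.eventually hS0
  filter_upwards [tp.eventually (inter_mem hL1 hL2), tw.eventually hη, tYS,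
    tB.eventually hinv, eventually_all.2 fun k => (td k).eventually hΛ0] with x h1 h2 h3 h4 h5
  have h6 := (hB' x.1 h1 x.2.1 h2 _ h5 Finset.univ).2 x.2.2 h3
  rw [← h6]
  congr 1
  have h8 : ∀ z : Matrix ι o D,
      ∑ k, σ (ν k) x.1 * x.2.1 * ((η⁻¹ • X k) * z) = B x * z := fun z => by
    simp only [hBd, Matrix.sum_mul, Matrix.mul_assoc]
  rw [h8, ← Matrix.mul_assoc, Ring.mul_inverse_cancel _ h4, Matrix.one_mul, add_sub_cancel]

/-- **Lemma L.** -/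
theorem lemmaL
    (F : P → Matrix ι o D → Matrix ι o D → E) (l : Filter P) (w0 : Matrix ι o D)
    (U : Set (Matrix o o D))
    (hspan : ∀ V ∈ 𝓝[U] (1 : Matrix o o D),
      ((AddSubgroup.closure {d | ∃ u ∈ V, d = u - 1} : AddSubgroup (Matrix o o D)) :
        Set (Matrix o o D)) ∈ 𝓝 (0 : Matrix o o D))
    (hinv : ∀ᶠ B in 𝓝 (1 : Matrix ι ι D), IsUnit B)
    (hinvc : ContinuousAt (Ring.inverse : Matrix ι ι D → Matrix ι ι D) 1)
    (hK : ∀ V ∈ 𝓝 (0 : K), ∃ η ∈ V, ∃ η' ∈ V, η ≠ 0 ∧ η' ≠ 0 ∧ η ≠ η')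
    -- invariance under `U` near 1
    (hU : ∀ᶠ x : Matrix o o D × P × Matrix ι o D × Matrix ι o D in
      𝓝[U] 1 ×ˢ l ×ˢ 𝓝 0 ×ˢ 𝓝 w0, F x.2.1 (x.2.2.1 * x.1) x.2.2.2 = F x.2.1 x.2.2.1 x.2.2.2)
    -- the unipotent moves
    (σ ω : K → P → Matrix ι ι D) (σ0 : K → Matrix ι ι D)
    (hσ : Tendsto (fun x : K × P => σ x.1 x.2) (𝓝 0 ×ˢ l) (𝓝 0))
    (hω : Tendsto (fun x : K × P => ω x.1 x.2) (𝓝 0 ×ˢ l) (𝓝 1))
    (hσ0 : ∀ᶠ ν in 𝓝 (0 : K), Tendsto (σ ν) l (𝓝 (σ0 ν)))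
    (hM : ∀ᶠ x : K × P × Matrix ι o D × Matrix ι o D in 𝓝 0 ×ˢ l ×ˢ 𝓝 0 ×ˢ 𝓝 w0,
      F x.2.1 x.2.2.1 x.2.2.2 =
        F x.2.1 x.2.2.1 (σ x.1 x.2.1 * x.2.2.1 + ω x.1 x.2.1 * x.2.2.2))
    -- the spanning condition
    (hS : ∀ V ∈ 𝓝 (0 : K), ∃ (m : ℕ) (ν : Fin m → K) (X : Fin m → Matrix o ι D),
      (∀ k, ν k ∈ V) ∧ ∑ k, σ0 (ν k) * w0 * X k = 1)
    -- the move
    (τ : K → P → Matrix ι ι D) (τ0 : K → Matrix ι ι D)
    (hτ : ∀ᶠ ν in 𝓝 (0 : K), Tendsto (τ ν) l (𝓝 (τ0 ν)))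
    (hN : ∀ᶠ x : K × P × Matrix ι o D × Matrix ι o D in 𝓝 0 ×ˢ l ×ˢ 𝓝 0 ×ˢ 𝓝 w0,
      F x.2.1 x.2.2.1 x.2.2.2 =
        F x.2.1 (x.2.2.1 + x.1 • x.2.2.2) (x.2.2.2 + τ x.1 x.2.1 * x.2.2.1)) :
    ∀ᶠ x : P × (Matrix ι o D × Matrix ι o D) × (Matrix ι o D × Matrix ι o D) in
      l ×ˢ 𝓝 (0, w0) ×ˢ 𝓝 (0, w0), F x.1 x.2.1.1 x.2.1.2 = F x.1 x.2.2.1 x.2.2.2 := by
  have hA := stepA F l w0 U hinv hinvc hU σ ω hσ hω hM
  have hC := stepC F l w0 U hspan hinv hinvc σ σ0 hσ0 hA hS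
  -- the function of one variable
  have hD : ∀ᶠ η in 𝓝 (0 : K), η ≠ 0 →
      ∀ᶠ x : P × Matrix ι o D × Matrix ι o D in l ×ˢ 𝓝 0 ×ˢ 𝓝 w0,
        F x.1 x.2.1 x.2.2 = F x.1 (x.2.1 + η • x.2.2) w0 := by
    filter_upwards [hC, hτ, hN.curry] with η h1 h2 h3 hη
    have h4 := h1 hη
    have tp : Tendsto (fun x : P × Matrix ι o D × Matrix ι o D => x.1)
        (l ×ˢ 𝓝 0 ×ˢ 𝓝 w0) l := tendsto_fst
    have tw : Tendsto (fun x : P × Matrix ι o D × Matrix ι o D => x.2.1)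
        (l ×ˢ 𝓝 0 ×ˢ 𝓝 w0) (𝓝 0) := tendsto_fst.comp tendsto_snd
    have tY : Tendsto (fun x : P × Matrix ι o D × Matrix ι o D => x.2.2)
        (l ×ˢ 𝓝 0 ×ˢ 𝓝 w0) (𝓝 w0) := tendsto_snd.comp tendsto_snd
    have t1 : Tendsto (fun x : P × Matrix ι o D × Matrix ι o D => x.2.1 + η • x.2.2)
        (l ×ˢ 𝓝 0 ×ˢ 𝓝 w0) (𝓝 (η • w0)) := by
      simpa using tw.add (tY.const_smul η)
    have t2 : Tendsto (fun x : P × Matrix ι o D × Matrix ι o D => x.2.2 + τ η x.1 * x.2.1)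
        (l ×ˢ 𝓝 0 ×ˢ 𝓝 w0) (𝓝 w0) := by
      simpa using tY.add (tendsto_mmul (h2.comp tp) tw)
    have h5 := (tp.prodMk (t1.prodMk t2)).eventually h4
    filter_upwards [h3, h5] with x h6 h7
    exact h6.trans h7
  obtain ⟨η, h1, η', h2, hη, hη', hne⟩ := hK _ hD
  have k1 := h1 hη
  have k2 := h2 hη'
  have hne' : η - η' ≠ 0 := sub_ne_zero.2 hne
  set G : Filter (P × (Matrix ι o D × Matrix ι o D) × (Matrix ι o D × Matrix ι o D)) :=
    l ×ˢ 𝓝 (0, w0) ×ˢ 𝓝 (0, w0) with hG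
  have tp : Tendsto (fun x : P × (Matrix ι o D × Matrix ι o D) ×
    (Matrix ι o D × Matrix ι o D) => x.1) G l := tendsto_fst
  have ta : Tendsto (fun x : P × (Matrix ι o D × Matrix ι o D) ×
      (Matrix ι o D × Matrix ι o D) => x.2.1) G (𝓝 (0, w0)) := tendsto_fst.comp tendsto_snd
  have tb : Tendsto (fun x : P × (Matrix ι o D × Matrix ι o D) ×
      (Matrix ι o D × Matrix ι o D) => x.2.2) G (𝓝 (0, w0)) := tendsto_snd.comp tendsto_snd
  have ta1 := (continuous_fst.tendsto _).comp ta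
  have ta2 := (continuous_snd.tendsto _).comp ta
  have tb1 := (continuous_fst.tendsto _).comp tb
  have tb2 := (continuous_snd.tendsto _).comp tb
  set b : P × (Matrix ι o D × Matrix ι o D) × (Matrix ι o D × Matrix ι o D) → Matrix ι o D :=
    fun x => (η - η')⁻¹ • ((x.2.1.1 + η • x.2.1.2) - (x.2.2.1 + η' • x.2.2.2)) with hb
  set a : P × (Matrix ι o D × Matrix ι o D) × (Matrix ι o D × Matrix ι o D) → Matrix ι o D :=
    fun x => (x.2.1.1 + η • x.2.1.2) - η • b x with ha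
  have tbt : Tendsto b G (𝓝 w0) := by
    have h := ((ta1.add (ta2.const_smul η)).sub (tb1.add (tb2.const_smul η'))).const_smul
      (η - η')⁻¹
    have h' : (η - η')⁻¹ • ((0 : Matrix ι o D) + η • w0 - (0 + η' • w0)) = w0 := by
      rw [zero_add, zero_add, ← sub_smul, smul_smul, inv_mul_cancel₀ hne', one_smul]
    simp only [h'] at h
    exact h
  have tat : Tendsto a G (𝓝 0) := by
    have h := (ta1.add (ta2.const_smul η)).sub (tbt.const_smul η)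
    simp only [zero_add, sub_self] at h
    exact h
  have e1 : ∀ x, a x + η • b x = x.2.1.1 + η • x.2.1.2 := fun x => sub_add_cancel _ _
  have e2 : ∀ x, a x + η' • b x = x.2.2.1 + η' • x.2.2.2 := by
    intro x
    have h3 : (η - η') • b x = (x.2.1.1 + η • x.2.1.2) - (x.2.2.1 + η' • x.2.2.2) := by
      simp only [hb]
      rw [smul_smul, mul_inv_cancel₀ hne', one_smul]
    have h4 : a x + η' • b x = (x.2.1.1 + η • x.2.1.2) - (η - η') • b x := by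
      simp only [ha]
      rw [sub_smul]; abel
    rw [h4, h3]; abel
  have f1 := (tp.prodMk (ta1.prodMk ta2)).eventually k1
  have f2 := (tp.prodMk (tat.prodMk tbt)).eventually k1
  have f3 := (tp.prodMk (tat.prodMk tbt)).eventually k2
  have f4 := (tp.prodMk (tb1.prodMk tb2)).eventually k2
  filter_upwards [f1, f2, f3, f4] with x g1 g2 g3 g4
  simp only [Function.comp_apply] at g1 g4
  rw [e1 x] at g2
  rw [e2 x] at g3
  rw [g1, ← g2, g3, ← g4]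

end main

end Vale.Agent.P011.H27.Odd
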